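import Mathlib

namespace Vale.Agent.Results.P174.PositiveReduction

open Monoid

/-- The exponent-sum homomorphism `G * F_n → ℤ^n` (written multiplicatively): it kills `G`
and sends the `j`-th free generator `x_j` to the `j`-th unit vector. -/
def expSum (G : Type*) [Group G] (n : ℕ) :
    Coprod G (FreeGroup (Fin n)) →* Multiplicative (Fin n → ℤ) :=
  Coprod.lift 1 (FreeGroup.lift fun j => Multiplicative.ofAdd (Pi.single j (1 : ℤ)))

/-- The exponent-sum matrix of a system `w_1, …, w_m ∈ G * F_n`, with entries viewed in `ℚ`. -/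
def expMatrix {G : Type*} [Group G] {m n : ℕ} (w : Fin m → Coprod G (FreeGroup (Fin n))) :
    Matrix (Fin m) (Fin n) ℚ :=
  Matrix.of fun i j => ((Multiplicative.toAdd (expSum G n (w i)) j : ℤ) : ℚ)

/-- A system of `m` equations is nonsingular if its exponent-sum matrix has rank `m` over `ℚ`. -/
def Nonsingular {G : Type*} [Group G] {m n : ℕ} (w : Fin m → Coprod G (FreeGroup (Fin n))) :
    Prop :=
  (expMatrix w).rank = m

/-- A system is solvable over `G` if the canonical map
`G → (G * F_n) / ⟨⟨w_1, …, w_m⟩⟩` is injective. -/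
def SolvableOver {G : Type*} [Group G] {m n : ℕ} (w : Fin m → Coprod G (FreeGroup (Fin n))) :
    Prop :=
  Function.Injective
    ((QuotientGroup.mk' (Subgroup.normalClosure (Set.range w))).comp
      (Coprod.inl : G →* Coprod G (FreeGroup (Fin n))))

/-- An element of `G * F_n` is positive if it is a product of elements of `G` and of the
free generators `x_j` (no inverse of an unknown is needed). -/
def IsPositive {G : Type*} [Group G] {n : ℕ} (u : Coprod G (FreeGroup (Fin n))) : Prop :=
  u ∈ Submonoid.closure
    (Set.range (Coprod.inl : G →* Coprod G (FreeGroup (Fin n))) ∪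
      Set.range fun j : Fin n => (Coprod.inr (FreeGroup.of j) : Coprod G (FreeGroup (Fin n))))

section aux

variable {G : Type*} [Group G]

theorem solvableOver_iff {m n : ℕ} (w : Fin m → Coprod G (FreeGroup (Fin n))) :
    SolvableOver w ↔
      ∀ g : G, (Coprod.inl g : Coprod G (FreeGroup (Fin n))) ∈
        Subgroup.normalClosure (Set.range w) → g = 1 := by
  unfold SolvableOver
  rw [injective_iff_map_eq_one]
  simp [QuotientGroup.eq_one_iff]

theorem nonsingular_iff {m n : ℕ} (w : Fin m → Coprod G (FreeGroup (Fin n))) :
    Nonsingular w ↔ LinearIndependent ℚ (expMatrix w).row := by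
  unfold Nonsingular
  rw [Matrix.rank_eq_finrank_span_row, linearIndependent_iff_card_eq_finrank_span, Set.finrank,
    Fintype.card_fin]
  exact eq_comm

/-- The unknown `x_j` among the `n + n` unknowns. -/
def xx (G : Type*) [Group G] (n : ℕ) (j : Fin n) : Coprod G (FreeGroup (Fin (n + n))) :=
  Coprod.inr (FreeGroup.of (Fin.castAdd n j))

/-- The unknown `y_j` among the `n + n` unknowns. -/
def yy (G : Type*) [Group G] (n : ℕ) (j : Fin n) : Coprod G (FreeGroup (Fin (n + n))) :=
  Coprod.inr (FreeGroup.of (Fin.natAdd n j))

/-- The projection `x_j ↦ x_j`, `y_j ↦ x_j⁻¹`. -/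
def proj (G : Type*) [Group G] (n : ℕ) :
    Coprod G (FreeGroup (Fin (n + n))) →* Coprod G (FreeGroup (Fin n)) :=
  Coprod.lift Coprod.inl
    (Coprod.inr.comp (FreeGroup.lift
      (Fin.addCases (fun j => FreeGroup.of j) (fun j => (FreeGroup.of j)⁻¹))))

/-- The inclusion `x_j ↦ x_j`. -/
def incl (G : Type*) [Group G] (n : ℕ) :
    Coprod G (FreeGroup (Fin n)) →* Coprod G (FreeGroup (Fin (n + n))) :=
  Coprod.lift Coprod.inl
    (Coprod.inr.comp (FreeGroup.map (Fin.castAdd n)))

theorem proj_inl (n : ℕ) (g : G) : proj G n (Coprod.inl g) = Coprod.inl g := by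
  simp [proj]

theorem proj_xx (n : ℕ) (j : Fin n) : proj G n (xx G n j) = Coprod.inr (FreeGroup.of j) := by
  simp [proj, xx]

theorem proj_yy (n : ℕ) (j : Fin n) :
    proj G n (yy G n j) = (Coprod.inr (FreeGroup.of j))⁻¹ := by
  simp only [proj, yy, Coprod.lift_apply_inr, MonoidHom.comp_apply, FreeGroup.lift_apply_of,
    Fin.addCases_right, map_inv]

theorem isPositive_one (n : ℕ) : IsPositive (1 : Coprod G (FreeGroup (Fin n))) :=
  Submonoid.one_mem _

theorem isPositive_mul {n : ℕ} {u v : Coprod G (FreeGroup (Fin n))}
    (hu : IsPositive u) (hv : IsPositive v) : IsPositive (u * v) :=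
  Submonoid.mul_mem _ hu hv

theorem isPositive_inl (n : ℕ) (g : G) :
    IsPositive (Coprod.inl g : Coprod G (FreeGroup (Fin n))) :=
  Submonoid.subset_closure (Or.inl ⟨g, rfl⟩)

theorem isPositive_gen (n : ℕ) (j : Fin n) :
    IsPositive (Coprod.inr (FreeGroup.of j) : Coprod G (FreeGroup (Fin n))) :=
  Submonoid.subset_closure (Or.inr ⟨j, rfl⟩)

/-- Every element of `G * F_n` is the image under `proj` of a positive element. -/
theorem exists_positive_lift (n : ℕ) (u : Coprod G (FreeGroup (Fin n))) :
    ∃ u' : Coprod G (FreeGroup (Fin (n + n))), IsPositive u' ∧ proj G n u' = u := by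
  have key : ∀ f : FreeGroup (Fin n),
      ∃ u' : Coprod G (FreeGroup (Fin (n + n))), IsPositive u' ∧ proj G n u' = Coprod.inr f := by
    intro f
    induction f using FreeGroup.induction_on with
    | C1 => exact ⟨1, isPositive_one _, by simp⟩
    | of j => exact ⟨xx G n j, isPositive_gen _ _, proj_xx n j⟩
    | inv_of j _ =>
      exact ⟨yy G n j, isPositive_gen _ _, by rw [proj_yy, map_inv]⟩
    | mul a b ha hb =>
      obtain ⟨a', ha', ha''⟩ := ha
      obtain ⟨b', hb', hb''⟩ := hb
      exact ⟨a' * b', isPositive_mul ha' hb', by rw [map_mul, ha'', hb'', map_mul]⟩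
  induction u using Coprod.induction_on with
  | inl g => exact ⟨Coprod.inl g, isPositive_inl _ g, proj_inl n g⟩
  | inr f => exact key f
  | mul x y hx hy =>
    obtain ⟨x', hx', hx''⟩ := hx
    obtain ⟨y', hy', hy''⟩ := hy
    exact ⟨x' * y', isPositive_mul hx' hy', by rw [map_mul, hx'', hy'']⟩

theorem addNat_ne_castAdd {n : ℕ} (a b : Fin n) : ¬ (a.addNat n = Fin.castAdd n b) := by
  intro h
  have h3 := congrArg Fin.val h
  simp at h3
  omega

theorem castAdd_ne_addNat {n : ℕ} (a b : Fin n) : ¬ (Fin.castAdd n b = a.addNat n) := by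
  intro h
  exact addNat_ne_castAdd a b h.symm

/-- The additive map `ℤ^(n+n) → ℤ^n`, `c ↦ (c(x_j) - c(y_j))_j`. -/
def deltaAdd (n : ℕ) : (Fin (n + n) → ℤ) →+ (Fin n → ℤ) where
  toFun c := fun j => c (Fin.castAdd n j) - c (Fin.natAdd n j)
  map_zero' := by ext; simp
  map_add' := by intros; ext; simp; ring

theorem expSum_inl (n : ℕ) (g : G) : expSum G n (Coprod.inl g) = 1 := by
  simp [expSum]

theorem expSum_gen (n : ℕ) (j : Fin n) :
    expSum G n (Coprod.inr (FreeGroup.of j)) = Multiplicative.ofAdd (Pi.single j (1 : ℤ)) := by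
  simp [expSum]

theorem expSum_proj (n : ℕ) (v : Coprod G (FreeGroup (Fin (n + n)))) :
    Multiplicative.toAdd (expSum G n (proj G n v)) =
      deltaAdd n (Multiplicative.toAdd (expSum G (n + n) v)) := by
  have h : (expSum G n).comp (proj G n) =
      (AddMonoidHom.toMultiplicative (deltaAdd n)).comp (expSum G (n + n)) := by
    apply Coprod.hom_ext
    · ext g
      simp [expSum_inl, proj_inl]
    · apply FreeGroup.ext_hom
      intro k
      refine Fin.addCases (fun j => ?_) (fun j => ?_) k
      · have h1 := proj_xx (G := G) n j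
        have h2 := expSum_gen (G := G) (n + n) (Fin.castAdd n j)
        simp only [xx] at h1
        simp only [MonoidHom.comp_apply, h1, h2, expSum_gen]
        apply congrArg Multiplicative.ofAdd
        ext j'
        have h3 : ¬ (j'.addNat n = Fin.castAdd n j) := by
          intro h
          have h3 := congrArg Fin.val h
          simp at h3
          omega
        simp [deltaAdd, Pi.single_apply, Fin.castAdd_inj, eq_comm, h3]
      · have h1 := proj_yy (G := G) n j
        have h2 := expSum_gen (G := G) (n + n) (Fin.natAdd n j)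
        simp only [yy] at h1
        simp only [MonoidHom.comp_apply, h1, h2, expSum_gen, map_inv]
        rw [← ofAdd_neg]
        apply congrArg Multiplicative.ofAdd
        ext j'
        simp [deltaAdd, Pi.single_apply, eq_comm]
        intro h
        have h3 := congrArg Fin.val h
        simp at h3
        omega
  have := DFunLike.congr_fun h v
  simpa using congrArg Multiplicative.toAdd this

/-- The positive system attached to `w`: positive lifts of the `w_i`, and the equations
`x_j y_j = 1`. -/
noncomputable def posSystem {m n : ℕ} (w : Fin m → Coprod G (FreeGroup (Fin n))) :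
    Fin (m + n) → Coprod G (FreeGroup (Fin (n + n))) :=
  Fin.addCases (fun i => Classical.choose (exists_positive_lift n (w i)))
    (fun j => xx G n j * yy G n j)

theorem posSystem_left {m n : ℕ} (w : Fin m → Coprod G (FreeGroup (Fin n))) (i : Fin m) :
    IsPositive (posSystem w (Fin.castAdd n i)) ∧ proj G n (posSystem w (Fin.castAdd n i)) = w i := by
  unfold posSystem
  rw [Fin.addCases_left]
  exact Classical.choose_spec (exists_positive_lift n (w i))

theorem posSystem_right {m n : ℕ} (w : Fin m → Coprod G (FreeGroup (Fin n))) (j : Fin n) :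
    posSystem w (Fin.natAdd m j) = xx G n j * yy G n j := by
  unfold posSystem
  rw [Fin.addCases_right]

theorem posSystem_positive {m n : ℕ} (w : Fin m → Coprod G (FreeGroup (Fin n)))
    (k : Fin (m + n)) : IsPositive (posSystem w k) := by
  refine Fin.addCases (fun i => ?_) (fun j => ?_) k
  · exact (posSystem_left w i).1
  · rw [posSystem_right]
    exact isPositive_mul (isPositive_gen _ _) (isPositive_gen _ _)

/-- The `ℚ`-linear map `ℚ^(n+n) → ℚ^n`, `c ↦ (c(x_j) - c(y_j))_j`. -/
def deltaQ (n : ℕ) : (Fin (n + n) → ℚ) →ₗ[ℚ] (Fin n → ℚ) where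
  toFun c := fun j => c (Fin.castAdd n j) - c (Fin.natAdd n j)
  map_add' := by intros; ext; simp; ring
  map_smul' := by intros; ext; simp; ring

theorem deltaQ_row_left {m n : ℕ} (w : Fin m → Coprod G (FreeGroup (Fin n))) (i : Fin m) :
    deltaQ n ((expMatrix (posSystem w)).row (Fin.castAdd n i)) = (expMatrix w).row i := by
  ext j
  have h := congrFun (expSum_proj n (posSystem w (Fin.castAdd n i))) j
  rw [(posSystem_left w i).2] at h
  simp only [deltaQ, LinearMap.coe_mk, AddHom.coe_mk, Matrix.row, expMatrix, Matrix.of_apply]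
  rw [h]
  simp [deltaAdd]

theorem row_right {m n : ℕ} (w : Fin m → Coprod G (FreeGroup (Fin n))) (j : Fin n) :
    (expMatrix (posSystem w)).row (Fin.natAdd m j) =
      Pi.single (Fin.castAdd n j) 1 + Pi.single (Fin.natAdd n j) 1 := by
  ext k
  simp only [Matrix.row, expMatrix, Matrix.of_apply, posSystem_right, xx, yy, map_mul, expSum_gen,
    toAdd_mul, toAdd_ofAdd, Pi.add_apply]
  simp [Pi.single_apply]

theorem nonsingular_posSystem {m n : ℕ} (w : Fin m → Coprod G (FreeGroup (Fin n)))
    (hw : Nonsingular w) : Nonsingular (posSystem w) := by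
  rw [nonsingular_iff] at hw ⊢
  rw [Fintype.linearIndependent_iff] at hw ⊢
  intro c hc
  rw [Fin.sum_univ_add] at hc
  have hleft : ∀ i : Fin m, c (Fin.castAdd n i) = 0 := by
    apply hw
    have h := congrArg (deltaQ n) hc
    rw [map_add, map_sum, map_sum, map_zero] at h
    have h2 : ∑ j : Fin n, deltaQ n (c (Fin.natAdd m j) •
        (expMatrix (posSystem w)).row (Fin.natAdd m j)) = 0 := by
      apply Finset.sum_eq_zero
      intro j _
      rw [map_smul, row_right]
      ext j'
      simp [deltaQ, Pi.single_apply, addNat_ne_castAdd, castAdd_ne_addNat]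
    rw [h2, add_zero] at h
    simpa [map_smul, deltaQ_row_left] using h
  have hright : ∀ j0 : Fin n, c (Fin.natAdd m j0) = 0 := by
    intro j0
    have h1 : ∑ i : Fin m, c (Fin.castAdd n i) •
        (expMatrix (posSystem w)).row (Fin.castAdd n i) = 0 := by
      apply Finset.sum_eq_zero
      intro i _
      rw [hleft, zero_smul]
    rw [h1, zero_add] at hc
    have h2 := congrFun hc (Fin.natAdd n j0)
    simp only [Finset.sum_apply, Pi.smul_apply, row_right, Pi.add_apply, Pi.zero_apply,
      smul_eq_mul] at h2
    simpa [Pi.single_apply, addNat_ne_castAdd, castAdd_ne_addNat, Fin.natAdd_inj] using h2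
  intro k
  exact Fin.addCases hleft hright k

theorem solvableOver_of_posSystem {m n : ℕ} (w : Fin m → Coprod G (FreeGroup (Fin n)))
    (h : SolvableOver (posSystem w)) : SolvableOver w := by
  rw [solvableOver_iff] at h ⊢
  intro g hg
  apply h g
  have hq : (QuotientGroup.mk' (Subgroup.normalClosure (Set.range (posSystem w)))).comp
      ((incl G n).comp (proj G n)) =
      QuotientGroup.mk' (Subgroup.normalClosure (Set.range (posSystem w))) := by
    apply Coprod.hom_ext
    · ext g
      simp [proj, incl]
    · apply FreeGroup.ext_hom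
      intro k
      refine Fin.addCases (fun j => ?_) (fun j => ?_) k
      · have h1 := proj_xx (G := G) n j
        simp only [xx] at h1
        simp only [MonoidHom.comp_apply, h1]
        simp [incl]
      · have h1 := proj_yy (G := G) n j
        simp only [yy] at h1
        simp only [MonoidHom.comp_apply, h1, map_inv]
        rw [inv_eq_iff_mul_eq_one, ← map_mul, QuotientGroup.mk'_apply, QuotientGroup.eq_one_iff]
        have h2 : incl G n (Coprod.inr (FreeGroup.of j)) *
            Coprod.inr (FreeGroup.of (Fin.natAdd n j)) = posSystem w (Fin.natAdd m j) := by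
          rw [posSystem_right]
          simp [incl, xx, yy]
        rw [h2]
        exact Subgroup.subset_normalClosure ⟨_, rfl⟩
  have hle : Subgroup.normalClosure (Set.range w) ≤
      (Subgroup.normalClosure (Set.range (posSystem w))).comap (incl G n) := by
    apply Subgroup.normalClosure_le_normal
    rintro _ ⟨i, rfl⟩
    show incl G n (w i) ∈ Subgroup.normalClosure (Set.range (posSystem w))
    rw [← QuotientGroup.eq_one_iff, ← QuotientGroup.mk'_apply]
    have h3 := DFunLike.congr_fun hq (posSystem w (Fin.castAdd n i))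
    simp only [MonoidHom.comp_apply] at h3
    rw [(posSystem_left w i).2] at h3
    rw [h3, QuotientGroup.mk'_apply, QuotientGroup.eq_one_iff]
    exact Subgroup.subset_normalClosure ⟨_, rfl⟩
  have h4 := hle hg
  simpa [incl] using h4

end aux

/-- For every group `G`: all nonsingular finite systems over `G` are solvable over `G` if and only
if all nonsingular finite systems of positive equations over `G` are solvable over `G`. -/
theorem result (G : Type*) [Group G] :
    (∀ (m n : ℕ) (w : Fin m → Coprod G (FreeGroup (Fin n))), Nonsingular w → SolvableOver w) ↔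
    (∀ (m n : ℕ) (w : Fin m → Coprod G (FreeGroup (Fin n))),
      (∀ i, IsPositive (w i)) → Nonsingular w → SolvableOver w) := by
  constructor
  · intro h m n w _ hw
    exact h m n w hw
  · intro h m n w hw
    exact solvableOver_of_posSystem w
      (h (m + n) (n + n) (posSystem w) (posSystem_positive w) (nonsingular_posSystem w hw))

end Vale.Agent.Results.P174.PositiveReduction
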